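import Vale.Agent.P252.MathlibUsed
import Vale.Agent.P252.Defs
import Vale.Agent.P252.BernsteinDefs
import Vale.Agent.P252.AffineDefs
import Vale.Agent.P252.Bdl.B1

open scoped ContDiff
open Vale.Agent.P252

namespace Vale.Agent.Results.P252.BothComplete

theorem result (n : ℕ) (hn : 10 ≤ n) :
    (∃ u : EuclideanSpace ℝ (Fin n) → ℝ, ContDiff ℝ ∞ u ∧ (∀ x, (hess u x).PosDef) ∧
      AffineMaximalOn Set.univ u ∧ EuclideanComplete Set.univ u ∧ AffineComplete Set.univ u ∧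
      ¬ IsQuadratic u) ∧ ¬ AffineBernstein n := by
  obtain ⟨p, rfl⟩ : ∃ p, n = p + 1 := ⟨n - 1, by omega⟩
  obtain ⟨u, h1, h2, h3, h4, h5⟩ := exists_affineComplete p (by omega)
  exact ⟨⟨u, h1, h2, h3, euclideanComplete_univ u h1, h4, h5⟩, not_affineBernstein u h1 h2 h3 h5⟩

end Vale.Agent.Results.P252.BothComplete
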