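import Vale.Agent.P252.MathlibUsed
import Vale.Agent.P252.Defs
import Vale.Agent.P252.Bdl.B1

open scoped ContDiff
open Vale.Agent.P252

namespace Vale.Agent.Results.P252.Entire

theorem result (n : ℕ) (hn : 10 ≤ n) :
    ∃ u : EuclideanSpace ℝ (Fin n) → ℝ, ContDiff ℝ ∞ u ∧ (∀ x, (hess u x).PosDef) ∧
      AffineMaximalOn Set.univ u ∧ ¬ IsQuadratic u :=
  exists_entire n hn

end Vale.Agent.Results.P252.Entire
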